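import Vale.Agent.Lib.P262.Main
import Vale.Agent.Lib.P262.Perm

namespace Vale.Agent.Results.P262.A_LinearBound

open Vale.Agent.Lib.P262

/-- Every zero-sum family of `N` vectors in the Euclidean unit ball of `ℝ^d` can be reordered so
that all partial sums have squared norm at most `d^2/8 + 11 d/8 + 1`; hence
`S_2(d) ≤ sqrt(d^2/8 + 11 d/8 + 1) ≈ 0.354 d`. -/
theorem result (d N : ℕ) (v : Fin N → EuclideanSpace ℝ (Fin d)) (hv : ∀ i, ‖v i‖ ≤ 1)
    (hsum : ∑ i, v i = 0) :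
    ∃ π : Equiv.Perm (Fin N), ∀ k : ℕ, k ≤ N →
      ‖∑ i ∈ Finset.univ.filter (fun i : Fin N => i.val < k), v (π i)‖ ^ 2
        ≤ (d : ℝ) ^ 2 / 8 + 11 * (d : ℝ) / 8 + 1 := by
  have hk : Module.finrank ℝ (EuclideanSpace ℝ (Fin d)) = d := finrank_euclideanSpace_fin
  have hA := A_pos d
  obtain ⟨l, hnd, hl, hok⟩ := claim_all (Fin N) d (EuclideanSpace ℝ (Fin d)) hk v hv Finset.univ 0
    (A d) (by simp; exact hA.le) (by simp [hsum]; exact hA.le) le_rfl
  obtain ⟨π, hπ⟩ := exists_perm_of_list l hnd hl v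
  refine ⟨π, fun k hk' => ?_⟩
  rw [hπ k hk']
  have h := hok (l.take k) (List.take_prefix k l)
  rw [zero_add, B_eq] at h
  refine h.trans (le_of_eq ?_)
  simp only [A]
  ring

end Vale.Agent.Results.P262.A_LinearBound
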