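import Vale.Agent.Lib.P262S.Final

namespace Vale.Agent.Results.P262.A_SqrtD

/-- **The Euclidean Steinitz conjecture.** Every zero-sum family of `N` vectors in the Euclidean unit
ball of `ℝ^d` can be reordered so that all partial sums have norm at most `2 ^ 102 * √d`, with no
dependence on `N`; hence the Euclidean Steinitz constant satisfies `S_2(d) = O(√d)`. -/
theorem result (d N : ℕ) (v : Fin N → EuclideanSpace ℝ (Fin d)) (hv : ∀ i, ‖v i‖ ≤ 1)
    (hsum : ∑ i, v i = 0) :
    ∃ π : Equiv.Perm (Fin N), ∀ k : ℕ, k ≤ N →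
      ‖∑ i ∈ Finset.univ.filter (fun i : Fin N => i.val < k), v (π i)‖ ≤ 2 ^ 102 * Real.sqrt (d : ℝ) :=
  Vale.Agent.Lib.P262S.steinitz_sqrt d N v hv hsum

end Vale.Agent.Results.P262.A_SqrtD
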