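import Vale.Agent.Lib.P262L.Final2

namespace Vale.Agent.Results.P262.A_SqrtDLog

/-- Every zero-sum family of `N` vectors in the Euclidean unit ball of `ℝ^d` can be reordered so
that all partial sums have squared norm at most `10¹⁵ · d · (⌈log₂ d⌉ + 14)`, with no dependence
on `N`; hence the Euclidean Steinitz constant satisfies `S_2(d) = O(√(d log d))`. -/
theorem result (d N : ℕ) (v : Fin N → EuclideanSpace ℝ (Fin d)) (hv : ∀ i, ‖v i‖ ≤ 1)
    (hsum : ∑ i, v i = 0) :
    ∃ π : Equiv.Perm (Fin N), ∀ k : ℕ, k ≤ N →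
      ‖∑ i ∈ Finset.univ.filter (fun i : Fin N => i.val < k), v (π i)‖ ^ 2
        ≤ 1000000000000000 * (d : ℝ) * ((Nat.clog 2 d : ℝ) + 14) :=
  Vale.Agent.Lib.P262L.steinitz_sqrt_log d N v hv hsum

end Vale.Agent.Results.P262.A_SqrtDLog
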