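import Vale.Agent.Lib.P262.Final

namespace Vale.Agent.Results.P262.A_SqrtPolylog

/-- Every zero-sum family of `N` vectors in the Euclidean unit ball of `ℝ^d` can be reordered so
that all partial sums have squared norm at most `3·10⁹ · d · (⌈log₂ d⌉ + 7)⁶`, with no dependence
on `N`; hence the Euclidean Steinitz constant satisfies `S_2(d) = O(√d · (log d)³)`. -/
theorem result (d N : ℕ) (v : Fin N → EuclideanSpace ℝ (Fin d)) (hv : ∀ i, ‖v i‖ ≤ 1)
    (hsum : ∑ i, v i = 0) :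
    ∃ π : Equiv.Perm (Fin N), ∀ k : ℕ, k ≤ N →
      ‖∑ i ∈ Finset.univ.filter (fun i : Fin N => i.val < k), v (π i)‖ ^ 2
        ≤ 3000000000 * (d : ℝ) * ((Nat.clog 2 d : ℝ) + 7) ^ 6 :=
  Vale.Agent.Lib.P262.steinitz_polylog d N v hv hsum

end Vale.Agent.Results.P262.A_SqrtPolylog
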